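import Mathlib

/-!
# P160 pool job 293, piece SS-1 (helper1): the abstract lazy-chain lemma

A weighted directed graph `q` on a finite set `Ω`, a potential `f` that strictly increases along
every move, a size function `sz` that stays or rises by one along every move, entry weight at most
`1/2`, the balance identity `in - out = (sz - n/2)/n` and `out ≤ n`.  Then the total out-weight of
a level set of `f`, restricted to `sz ≥ n/2 - √n`, is at most `10 |Ω| / √n`.
-/

namespace Vale.Agent.Lib.P160.H1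

open Finset BigOperators

variable {Ω : Type} [Fintype Ω]

/-- Mass of the lazy chain after `k` steps, started from the counting measure (`r = 1/N`). -/
noncomputable def lazyU (q : Ω → Ω → ℝ) (r : ℝ) : ℕ → Ω → ℝ
  | 0, _ => 1
  | k + 1, S => lazyU q r k S * (1 - (∑ S', q S S') * r) + r * ∑ S', q S' S * lazyU q r k S'

theorem lazyU_zero (q : Ω → Ω → ℝ) (r : ℝ) (S : Ω) : lazyU q r 0 S = 1 := rfl

theorem lazyU_succ (q : Ω → Ω → ℝ) (r : ℝ) (k : ℕ) (S : Ω) :
    lazyU q r (k + 1) S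
      = lazyU q r k S * (1 - (∑ S', q S S') * r) + r * ∑ S', q S' S * lazyU q r k S' := rfl

theorem lazyU_nonneg (q : Ω → Ω → ℝ) (N r : ℝ) (hr : 0 ≤ r) (hNr : N * r = 1)
    (hq0 : ∀ S S', 0 ≤ q S S') (hout : ∀ S, ∑ S', q S S' ≤ N) :
    ∀ (k : ℕ) (S : Ω), 0 ≤ lazyU q r k S := by
  intro k
  induction k with
  | zero => intro S; rw [lazyU_zero]; norm_num
  | succ k ih =>
    intro S
    rw [lazyU_succ]
    have h1 : (∑ S', q S S') * r ≤ 1 := by
      have := mul_le_mul_of_nonneg_right (hout S) hr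
      rw [hNr] at this
      exact this
    have h2 : 0 ≤ ∑ S', q S' S * lazyU q r k S' :=
      Finset.sum_nonneg fun S' _ => mul_nonneg (hq0 S' S) (ih S')
    have h3 : 0 ≤ lazyU q r k S * (1 - (∑ S', q S S') * r) :=
      mul_nonneg (ih S) (by linarith)
    have h4 : 0 ≤ r * ∑ S', q S' S * lazyU q r k S' := mul_nonneg hr h2
    linarith

/-- The comparison profile `ψ_k(j)` (`r = 1/N`). -/
noncomputable def psi (N r : ℝ) (k : ℕ) (j : ℝ) : ℝ :=
  Real.exp ((k : ℝ) * (j - N / 2) * r ^ 2 - (k : ℝ) * ((k : ℝ) - 1) / 4 * r ^ 3 - (k : ℝ) * r ^ 2)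

theorem psi_pos (N r : ℝ) (k : ℕ) (j : ℝ) : 0 < psi N r k j := Real.exp_pos _

theorem psi_zero (N r : ℝ) (j : ℝ) : psi N r 0 j = 1 := by
  unfold psi
  simp

theorem psi_pred (N r : ℝ) (k : ℕ) (j : ℝ) :
    psi N r k (j - 1) = psi N r k j * Real.exp (-((k : ℝ) * r ^ 2)) := by
  unfold psi
  rw [← Real.exp_add]
  congr 1
  ring

theorem psi_succ (N r : ℝ) (k : ℕ) (j : ℝ) :
    psi N r (k + 1) j
      = psi N r k j * Real.exp ((j - N / 2) * r ^ 2 - (k : ℝ) * r ^ 3 / 2 - r ^ 2) := by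
  unfold psi
  rw [← Real.exp_add]
  congr 1
  push_cast
  ring

/-- Numeric facts for the induction step. -/
theorem num_step (N r s k j : ℝ) (hN : 16 ≤ N) (hNr : N * r = 1) (hs : s * s = N) (hs4 : 4 ≤ s)
    (hk0 : 0 ≤ k) (hk : k ≤ N * s) (hj0 : 0 ≤ j) (hjN : j ≤ N) :
    0 < r ∧ k * r ^ 2 ≤ 1 / 4 ∧
      Real.exp ((j - N / 2) * r ^ 2 - k * r ^ 3 / 2 - r ^ 2)
        ≤ 1 + (j - N / 2) * r ^ 2 - k * r ^ 3 / 2 := by
  have hr0 : 0 < r := by
    by_contra h
    have h' : r ≤ 0 := not_lt.1 h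
    have : N * r ≤ 0 := mul_nonpos_of_nonneg_of_nonpos (by linarith) h'
    linarith
  have hr16 : r ≤ 1 / 16 := by nlinarith
  have ha : k * r ≤ s := by
    have := mul_le_mul_of_nonneg_right hk hr0.le
    have e : N * s * r = s := by
      calc N * s * r = s * (N * r) := by ring
        _ = s := by rw [hNr, mul_one]
    linarith
  have hb : s * r ≤ 1 / 4 := by
    have e : s * (s * r) = 1 := by
      calc s * (s * r) = (s * s) * r := by ring
        _ = 1 := by rw [hs, hNr]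
    have h0 : 0 ≤ s * r := mul_nonneg (by linarith) hr0.le
    nlinarith
  have ht : k * r ^ 2 ≤ 1 / 4 := by
    have : k * r * r ≤ s * r := mul_le_mul_of_nonneg_right ha hr0.le
    have e : k * r ^ 2 = k * r * r := by ring
    linarith
  refine ⟨hr0, ht, ?_⟩
  obtain ⟨y, hy⟩ : ∃ y : ℝ, y = (j - N / 2) * r ^ 2 - k * r ^ 3 / 2 - r ^ 2 := ⟨_, rfl⟩
  rw [← hy]
  have hNr2 : N * r ^ 2 = r := by
    calc N * r ^ 2 = (N * r) * r := by ring
      _ = r := by rw [hNr, one_mul]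
  have hr2 : 0 ≤ r ^ 2 := by positivity
  have h1 : (j - N / 2) * r ^ 2 ≤ N / 2 * r ^ 2 :=
    mul_le_mul_of_nonneg_right (by linarith) hr2
  have h1' : -(N / 2) * r ^ 2 ≤ (j - N / 2) * r ^ 2 :=
    mul_le_mul_of_nonneg_right (by linarith) hr2
  have e1 : N / 2 * r ^ 2 = r / 2 := by
    calc N / 2 * r ^ 2 = (N * r ^ 2) / 2 := by ring
      _ = r / 2 := by rw [hNr2]
  have e1' : -(N / 2) * r ^ 2 = -(r / 2) := by
    calc -(N / 2) * r ^ 2 = -((N * r ^ 2) / 2) := by ring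
      _ = -(r / 2) := by rw [hNr2]
  have h2 : 0 ≤ k * r ^ 3 / 2 := by positivity
  have h2' : k * r ^ 3 / 2 ≤ r / 8 := by
    have : k * r ^ 2 * r ≤ 1 / 4 * r := mul_le_mul_of_nonneg_right ht hr0.le
    have e : k * r ^ 3 / 2 = k * r ^ 2 * r / 2 := by ring
    linarith
  have h3' : r ^ 2 ≤ r / 16 := by
    have : r * r ≤ 1 / 16 * r := mul_le_mul_of_nonneg_right hr16 hr0.le
    have e : r ^ 2 = r * r := by ring
    linarith
  have hy1 : y ≤ r := by
    rw [hy]; linarith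
  have hy2 : -r ≤ y := by
    rw [hy]; linarith
  have hyabs : |y| ≤ 1 := by
    rw [abs_le]
    constructor <;> linarith
  have hysq : y ^ 2 ≤ r ^ 2 := sq_le_sq' hy2 hy1
  have hexpy : Real.exp y ≤ 1 + y + y ^ 2 := by
    have := Real.abs_exp_sub_one_sub_id_le hyabs
    rw [abs_le] at this
    linarith [this.2]
  have e : 1 + y + r ^ 2 = 1 + (j - N / 2) * r ^ 2 - k * r ^ 3 / 2 := by
    rw [hy]; ring
  linarith

/-- Step (ii): the lazy-chain mass dominates the profile `ψ`. -/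
theorem lazyU_ge_psi (q : Ω → Ω → ℝ) (sz : Ω → ℕ) (N r s : ℝ)
    (hN : 16 ≤ N) (hNr : N * r = 1) (hs : s * s = N) (hs4 : 4 ≤ s)
    (hq0 : ∀ S S', 0 ≤ q S S')
    (hsz : ∀ S' S, q S' S ≠ 0 → sz S' = sz S ∨ sz S' + 1 = sz S)
    (hent : ∀ S, ∑ S' ∈ univ.filter (fun S' => sz S' + 1 = sz S), q S' S ≤ 1 / 2)
    (hbal : ∀ S, ∑ S', q S' S - ∑ S', q S S' = ((sz S : ℝ) - N / 2) * r)
    (hout : ∀ S, ∑ S', q S S' ≤ N) (hszn : ∀ S, (sz S : ℝ) ≤ N) :
    ∀ k : ℕ, (k : ℝ) ≤ N * s → ∀ S, psi N r k (sz S) ≤ lazyU q r k S := by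
  intro k
  induction k with
  | zero =>
    intro _ S
    rw [psi_zero, lazyU_zero]
  | succ k ih =>
    intro hk S
    have hk' : (k : ℝ) ≤ N * s := by
      have : ((k + 1 : ℕ) : ℝ) = (k : ℝ) + 1 := by push_cast; ring
      rw [this] at hk
      linarith
    have ih' := ih hk'
    have hk0 : (0 : ℝ) ≤ k := Nat.cast_nonneg k
    -- abbreviations
    obtain ⟨j, hj⟩ : ∃ j : ℝ, j = (sz S : ℝ) := ⟨_, rfl⟩
    have hj0 : 0 ≤ j := by rw [hj]; exact Nat.cast_nonneg _
    have hjN : j ≤ N := by rw [hj]; exact hszn S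
    obtain ⟨hr0, ht, hexpy'⟩ := num_step N r s k j hN hNr hs hs4 hk0 hk' hj0 hjN
    obtain ⟨A, hA⟩ : ∃ A : ℝ, A = psi N r k j := ⟨_, rfl⟩
    obtain ⟨B, hB⟩ : ∃ B : ℝ, B = psi N r k (j - 1) := ⟨_, rfl⟩
    have hApos : 0 < A := by rw [hA]; exact psi_pos _ _ _ _
    have ht0 : 0 ≤ (k : ℝ) * r ^ 2 := by positivity
    -- B = A * exp (-t), so B ≤ A and A - B ≤ A * t
    have hBA : B = A * Real.exp (-((k : ℝ) * r ^ 2)) := by
      rw [hB, hA]; exact psi_pred N r k j
    have hexp1 : Real.exp (-((k : ℝ) * r ^ 2)) ≤ 1 := by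
      rw [Real.exp_le_one_iff]; linarith
    have hexp2 : 1 - (k : ℝ) * r ^ 2 ≤ Real.exp (-((k : ℝ) * r ^ 2)) := by
      have := Real.add_one_le_exp (-((k : ℝ) * r ^ 2))
      linarith
    have hAB0 : 0 ≤ A - B := by
      rw [hBA]
      have := mul_le_mul_of_nonneg_left hexp1 hApos.le
      linarith
    have hAB1 : A - B ≤ A * ((k : ℝ) * r ^ 2) := by
      rw [hBA]
      have := mul_le_mul_of_nonneg_left hexp2 hApos.le
      linarith
    -- the predecessor sum
    have key1 : (∑ S', q S' S) * A - 1 / 2 * (A - B) ≤ ∑ S', q S' S * lazyU q r k S' := by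
      have e1 : ∑ S', q S' S * (if sz S' + 1 = sz S then B else A)
          = (∑ S', q S' S) * A
            - (∑ S' ∈ univ.filter (fun S' => sz S' + 1 = sz S), q S' S) * (A - B) := by
        rw [Finset.sum_mul, Finset.sum_mul, Finset.sum_filter, ← Finset.sum_sub_distrib]
        refine Finset.sum_congr rfl fun S' _ => ?_
        split_ifs <;> ring
      have e2 : ∑ S', q S' S * (if sz S' + 1 = sz S then B else A)
          ≤ ∑ S', q S' S * lazyU q r k S' := by
        refine Finset.sum_le_sum fun S' _ => ?_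
        by_cases hq : q S' S = 0
        · rw [hq, zero_mul, zero_mul]
        · refine mul_le_mul_of_nonneg_left ?_ (hq0 S' S)
          rcases hsz S' S hq with h | h
          · have hne : ¬ (sz S' + 1 = sz S) := by omega
            rw [if_neg hne, hA, hj, ← h]
            exact ih' S'
          · rw [if_pos h, hB, hj, ← h]
            have : ((sz S' + 1 : ℕ) : ℝ) - 1 = (sz S' : ℝ) := by push_cast; ring
            rw [this]
            exact ih' S'
      have e3 : (∑ S' ∈ univ.filter (fun S' => sz S' + 1 = sz S), q S' S) * (A - B)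
          ≤ 1 / 2 * (A - B) := mul_le_mul_of_nonneg_right (hent S) hAB0
      linarith
    -- the step
    have hout1 : (∑ S', q S S') * r ≤ 1 := by
      have := mul_le_mul_of_nonneg_right (hout S) hr0.le
      rw [hNr] at this
      exact this
    have hbal' := hbal S
    rw [← hj] at hbal'
    obtain ⟨out, ho⟩ : ∃ o : ℝ, o = ∑ S', q S S' := ⟨_, rfl⟩
    obtain ⟨inn, hi⟩ : ∃ o : ℝ, o = ∑ S', q S' S := ⟨_, rfl⟩
    obtain ⟨Sg, hSg⟩ : ∃ o : ℝ, o = ∑ S', q S' S * lazyU q r k S' := ⟨_, rfl⟩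
    have hu := ih' S
    rw [← hj, ← hA] at hu
    rw [lazyU_succ, ← hj, psi_succ, ← hA, ← ho, ← hSg]
    rw [← hi, ← hSg] at key1
    rw [← ho] at hout1
    rw [← hi, ← ho] at hbal'
    -- assemble
    have s1 : A * Real.exp ((j - N / 2) * r ^ 2 - (k : ℝ) * r ^ 3 / 2 - r ^ 2)
        ≤ A * (1 + (j - N / 2) * r ^ 2 - (k : ℝ) * r ^ 3 / 2) :=
      mul_le_mul_of_nonneg_left hexpy' hApos.le
    have s2 : A * (1 - out * r) ≤ lazyU q r k S * (1 - out * r) :=
      mul_le_mul_of_nonneg_right hu (by linarith)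
    have s3 : r * (inn * A - 1 / 2 * (A - B)) ≤ r * Sg :=
      mul_le_mul_of_nonneg_left key1 hr0.le
    have s4 : r * (1 / 2 * (A - B)) ≤ r * (1 / 2 * (A * ((k : ℝ) * r ^ 2))) :=
      mul_le_mul_of_nonneg_left (by linarith) hr0.le
    have s5 : A * (1 + (j - N / 2) * r ^ 2 - (k : ℝ) * r ^ 3 / 2)
        = A * (1 - out * r) + r * (inn * A - 1 / 2 * (A * ((k : ℝ) * r ^ 2))) := by
      have : inn = out + (j - N / 2) * r := by linarith
      rw [this]
      ring
    have s3' : r * (inn * A - 1 / 2 * (A - B)) = r * (inn * A) - r * (1 / 2 * (A - B)) := by ring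
    have s5' : r * (inn * A - 1 / 2 * (A * ((k : ℝ) * r ^ 2)))
        = r * (inn * A) - r * (1 / 2 * (A * ((k : ℝ) * r ^ 2))) := by ring
    linarith only [s1, s2, s3, s4, s5, s3', s5']

theorem exp_neg_three_half : (1 : ℝ) / 5 ≤ Real.exp (-(3 / 2)) := by
  have h1 : Real.exp 1 < 2.7182818286 := Real.exp_one_lt_d9
  have hp := Real.exp_pos 1
  have hp' := Real.exp_pos (3 / 2 : ℝ)
  have h2 : Real.exp (3 / 2) * Real.exp (3 / 2) = Real.exp 1 * Real.exp 1 * Real.exp 1 := by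
    rw [← Real.exp_add, ← Real.exp_add, ← Real.exp_add]
    norm_num
  have hsq : Real.exp 1 * Real.exp 1 < 2.7182818286 * 2.7182818286 :=
    mul_lt_mul'' h1 h1 hp.le hp.le
  have hcu : Real.exp 1 * Real.exp 1 * Real.exp 1 < 2.7182818286 * 2.7182818286 * 2.7182818286 :=
    mul_lt_mul'' hsq h1 (by positivity) hp.le
  have h25 : Real.exp (3 / 2) * Real.exp (3 / 2) < 25 := by
    rw [h2]
    refine lt_trans hcu (by norm_num)
  have h5 : Real.exp (3 / 2) ≤ 5 := by
    by_contra h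
    have h' : 5 < Real.exp (3 / 2) := not_le.1 h
    nlinarith
  rw [Real.exp_neg, ← one_div]
  exact one_div_le_one_div_of_le hp' h5

/-- On the upper half (up to `√n`) the profile stays above `1/5` for `k ≤ N s`. -/
theorem psi_ge_fifth (N r s : ℝ) (k : ℕ) (j : ℝ) (hN : 16 ≤ N) (hNr : N * r = 1)
    (hs : s * s = N) (hs4 : 4 ≤ s) (hk : (k : ℝ) ≤ N * s) (hj : N / 2 - s ≤ j) :
    1 / 5 ≤ psi N r k j := by
  have hk0 : (0 : ℝ) ≤ k := Nat.cast_nonneg k
  have hr0 : 0 < r := by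
    by_contra h
    have h' : r ≤ 0 := not_lt.1 h
    have : N * r ≤ 0 := mul_nonpos_of_nonneg_of_nonpos (by linarith) h'
    linarith
  obtain ⟨a, ha⟩ : ∃ a : ℝ, a = (k : ℝ) * r := ⟨_, rfl⟩
  have ha0 : 0 ≤ a := by rw [ha]; positivity
  have has : a ≤ s := by
    rw [ha]
    have := mul_le_mul_of_nonneg_right hk hr0.le
    have e : N * s * r = s := by
      calc N * s * r = s * (N * r) := by ring
        _ = s := by rw [hNr, mul_one]
    linarith
  have hsb : s * (s * r) = 1 := by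
    calc s * (s * r) = (s * s) * r := by ring
      _ = 1 := by rw [hs, hNr]
  have hb0 : 0 ≤ s * r := mul_nonneg (by linarith) hr0.le
  have hb : s * r ≤ 1 / 4 := by nlinarith
  -- three pieces of the exponent
  have p1 : -1 ≤ (k : ℝ) * (j - N / 2) * r ^ 2 := by
    have e : (k : ℝ) * (j - N / 2) * r ^ 2 = (a * r) * (j - N / 2) := by rw [ha]; ring
    rw [e]
    have h1 : (a * r) * (-s) ≤ (a * r) * (j - N / 2) :=
      mul_le_mul_of_nonneg_left (by linarith) (mul_nonneg ha0 hr0.le)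
    have h2 : a * (s * r) ≤ s * (s * r) := mul_le_mul_of_nonneg_right has hb0
    have e2 : (a * r) * (-s) = -(a * (s * r)) := by ring
    linarith
  have p2 : (k : ℝ) * ((k : ℝ) - 1) / 4 * r ^ 3 ≤ 1 / 4 := by
    have e : (k : ℝ) * ((k : ℝ) - 1) / 4 * r ^ 3 = (a * a * r) / 4 - a * r ^ 2 / 4 := by
      rw [ha]; ring
    rw [e]
    have h1 : a * a ≤ s * s := mul_le_mul has has ha0 (by linarith)
    have h2 : a * a * r ≤ s * s * r := mul_le_mul_of_nonneg_right h1 hr0.le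
    have h3 : s * s * r = 1 := by rw [hs, hNr]
    have h4 : 0 ≤ a * r ^ 2 / 4 := by positivity
    linarith
  have p3 : (k : ℝ) * r ^ 2 ≤ 1 / 4 := by
    have e : (k : ℝ) * r ^ 2 = a * r := by rw [ha]; ring
    rw [e]
    have : a * r ≤ s * r := mul_le_mul_of_nonneg_right has hr0.le
    linarith
  refine le_trans exp_neg_three_half ?_
  unfold psi
  apply Real.exp_le_exp.2
  linarith

/-- Step (iii), one step: the mass of `{f ≤ x}` drops by the out-flow of the level set. -/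
theorem mass_step (q : Ω → Ω → ℝ) (f : Ω → ℝ) (r x : ℝ) (hr : 0 ≤ r) (u : Ω → ℝ)
    (hu : ∀ S, 0 ≤ u S) (hq0 : ∀ S S', 0 ≤ q S S') (hf : ∀ S S', q S S' ≠ 0 → f S < f S') :
    ∑ S, (if f S ≤ x then (u S * (1 - (∑ S', q S S') * r) + r * ∑ S', q S' S * u S') else 0)
        + r * ∑ S, (if f S = x then u S * ∑ S', q S S' else 0)
      ≤ ∑ S, (if f S ≤ x then u S else 0) := by
  have E1 : ∑ S, (if f S ≤ x then (u S * (1 - (∑ S', q S S') * r) + r * ∑ S', q S' S * u S')
        else 0)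
      = ∑ S, (if f S ≤ x then u S else 0)
        - r * ∑ S, (if f S ≤ x then u S * ∑ S', q S S' else 0)
        + r * ∑ S, (if f S ≤ x then ∑ S', q S' S * u S' else 0) := by
    rw [Finset.mul_sum, Finset.mul_sum, ← Finset.sum_sub_distrib, ← Finset.sum_add_distrib]
    refine Finset.sum_congr rfl fun S _ => ?_
    split_ifs <;> ring
  have E2 : ∑ S, (if f S ≤ x then u S * ∑ S', q S S' else 0)
      = ∑ S, (if f S < x then u S * ∑ S', q S S' else 0)
        + ∑ S, (if f S = x then u S * ∑ S', q S S' else 0) := by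
    rw [← Finset.sum_add_distrib]
    refine Finset.sum_congr rfl fun S _ => ?_
    rcases lt_trichotomy (f S) x with h | h | h
    · rw [if_pos h.le, if_pos h, if_neg h.ne, add_zero]
    · rw [if_pos h.le, if_neg (by rw [h]; exact lt_irrefl x), if_pos h, zero_add]
    · rw [if_neg (not_le.2 h), if_neg (not_lt.2 h.le), if_neg h.ne', add_zero]
  have key : ∑ S, (if f S ≤ x then ∑ S', q S' S * u S' else 0)
      ≤ ∑ S', (if f S' < x then u S' * ∑ S, q S' S else 0) := by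
    have e : ∑ S, (if f S ≤ x then ∑ S', q S' S * u S' else 0)
        = ∑ S', ∑ S, (if f S ≤ x then q S' S * u S' else 0) := by
      rw [Finset.sum_comm]
      refine Finset.sum_congr rfl fun S _ => ?_
      split_ifs
      · rfl
      · rw [Finset.sum_const_zero]
    rw [e]
    refine Finset.sum_le_sum fun S' _ => ?_
    by_cases h : f S' < x
    · rw [if_pos h, Finset.mul_sum]
      refine Finset.sum_le_sum fun S _ => ?_
      split_ifs
      · rw [mul_comm]
      · exact mul_nonneg (hu S') (hq0 S' S)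
    · rw [if_neg h]
      refine le_of_eq (Finset.sum_eq_zero fun S _ => ?_)
      split_ifs with h2
      · by_cases hq : q S' S = 0
        · rw [hq, zero_mul]
        · exact absurd (lt_of_lt_of_le (hf S' S hq) h2) h
      · rfl
  rw [E1, E2]
  have k2 := mul_le_mul_of_nonneg_left key hr
  rw [mul_add]
  linarith

/-- Step (iii), telescoped. -/
theorem mass_tele (q : Ω → Ω → ℝ) (f : Ω → ℝ) (N r x : ℝ) (hr : 0 ≤ r) (hNr : N * r = 1)
    (hq0 : ∀ S S', 0 ≤ q S S') (hf : ∀ S S', q S S' ≠ 0 → f S < f S')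
    (hout : ∀ S, ∑ S', q S S' ≤ N) (K : ℕ) :
    ∑ S, (if f S ≤ x then lazyU q r K S else 0)
        + r * ∑ k ∈ range K, ∑ S, (if f S = x then lazyU q r k S * ∑ S', q S S' else 0)
      ≤ ∑ S, (if f S ≤ x then lazyU q r 0 S else 0) := by
  induction K with
  | zero => simp
  | succ K ih =>
    have h := mass_step q f r x hr (lazyU q r K) (lazyU_nonneg q N r hr hNr hq0 hout K) hq0 hf
    rw [Finset.sum_range_succ, mul_add]
    have e : ∑ S, (if f S ≤ x then lazyU q r (K + 1) S else 0)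
        = ∑ S, (if f S ≤ x then (lazyU q r K S * (1 - (∑ S', q S S') * r)
            + r * ∑ S', q S' S * lazyU q r K S') else 0) := rfl
    rw [e]
    linarith

/-- **Piece SS-1** (abstract chain lemma, steps (ii) and (iii) of the report). -/
theorem chain_level {Ω : Type} [Fintype Ω] [DecidableEq Ω] (q : Ω → Ω → ℝ) (f : Ω → ℝ)
    (sz : Ω → ℕ) (n : ℕ) (hn : 16 ≤ n)
    (hq0 : ∀ S S', 0 ≤ q S S') (hf : ∀ S S', q S S' ≠ 0 → f S < f S')
    (hsz : ∀ S' S, q S' S ≠ 0 → sz S' = sz S ∨ sz S' + 1 = sz S)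
    (hent : ∀ S, ∑ S' ∈ univ.filter (fun S' => sz S' + 1 = sz S), q S' S ≤ 1 / 2)
    (hbal : ∀ S, ∑ S', q S' S - ∑ S', q S S' = ((sz S : ℝ) - n / 2) / n)
    (hout : ∀ S, ∑ S', q S S' ≤ n) (hszn : ∀ S, sz S ≤ n) (x : ℝ) :
    Real.sqrt n * ∑ S ∈ univ.filter (fun S => f S = x ∧ (n : ℝ) / 2 - Real.sqrt n ≤ sz S),
        ∑ S', q S S' ≤ 10 * Fintype.card Ω := by
  obtain ⟨N, hNdef⟩ : ∃ N : ℝ, N = (n : ℝ) := ⟨_, rfl⟩
  have hN : 16 ≤ N := by rw [hNdef]; exact_mod_cast hn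
  obtain ⟨r, hrdef⟩ : ∃ r : ℝ, r = 1 / N := ⟨_, rfl⟩
  have hNr : N * r = 1 := by
    rw [hrdef]
    exact mul_one_div_cancel (by linarith)
  have hr0 : 0 < r := by rw [hrdef]; positivity
  obtain ⟨s, hsdef⟩ : ∃ s : ℝ, s = Real.sqrt N := ⟨_, rfl⟩
  have hs : s * s = N := by rw [hsdef]; exact Real.mul_self_sqrt (by linarith)
  have hs0 : 0 ≤ s := by rw [hsdef]; exact Real.sqrt_nonneg _
  have hs4 : 4 ≤ s := by
    by_contra h
    have h' : s < 4 := not_le.1 h
    nlinarith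
  rw [← hNdef] at hbal hout ⊢
  rw [← hsdef]
  have hbal' : ∀ S, ∑ S', q S' S - ∑ S', q S S' = ((sz S : ℝ) - N / 2) * r := by
    intro S
    rw [hbal S, hrdef, div_eq_mul_one_div]
  have hszn' : ∀ S, (sz S : ℝ) ≤ N := by
    intro S
    rw [hNdef]
    exact_mod_cast hszn S
  have hu0 : ∀ k S, 0 ≤ lazyU q r k S := lazyU_nonneg q N r hr0.le hNr hq0 hout
  have hub : ∀ k : ℕ, (k : ℝ) ≤ N * s → ∀ S, N / 2 - s ≤ (sz S : ℝ) → 1 / 5 ≤ lazyU q r k S := by
    intro k hk S hS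
    exact le_trans (psi_ge_fifth N r s k _ hN hNr hs hs4 hk hS)
      (lazyU_ge_psi q sz N r s hN hNr hs hs4 hq0 hsz hent hbal' hout hszn' k hk S)
  obtain ⟨T, hT⟩ : ∃ T : ℝ,
      T = ∑ S ∈ univ.filter (fun S => f S = x ∧ N / 2 - s ≤ (sz S : ℝ)), ∑ S', q S S' := ⟨_, rfl⟩
  rw [← hT]
  have hT0 : 0 ≤ T := by
    rw [hT]
    exact Finset.sum_nonneg fun S _ => Finset.sum_nonneg fun S' _ => hq0 S S'
  have hlev : ∀ k : ℕ, (k : ℝ) ≤ N * s →
      1 / 5 * T ≤ ∑ S, (if f S = x then lazyU q r k S * ∑ S', q S S' else 0) := by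
    intro k hk
    rw [hT, Finset.mul_sum, Finset.sum_filter]
    refine Finset.sum_le_sum fun S _ => ?_
    have ho : 0 ≤ ∑ S', q S S' := Finset.sum_nonneg fun S' _ => hq0 S S'
    by_cases h1 : f S = x
    · rw [if_pos h1]
      by_cases h2 : N / 2 - s ≤ (sz S : ℝ)
      · rw [if_pos ⟨h1, h2⟩]
        exact mul_le_mul_of_nonneg_right (hub k hk S h2) ho
      · rw [if_neg (fun h => h2 h.2)]
        exact mul_nonneg (hu0 k S) ho
    · rw [if_neg h1, if_neg (fun h => h1 h.1)]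
  obtain ⟨K, hK⟩ : ∃ K : ℕ, K = ⌊N * s⌋₊ := ⟨_, rfl⟩
  have hNs0 : 0 ≤ N * s := mul_nonneg (by linarith) hs0
  have hK1 : (K : ℝ) ≤ N * s := by rw [hK]; exact Nat.floor_le hNs0
  have hK2 : N * s < (K : ℝ) + 1 := by rw [hK]; exact Nat.lt_floor_add_one _
  have hNs64 : 64 ≤ N * s := by nlinarith
  have hKhalf : N * s / 2 ≤ (K : ℝ) := by linarith
  have tele := mass_tele q f N r x hr0.le hNr hq0 hf hout K
  have hm0 : ∑ S, (if f S ≤ x then lazyU q r 0 S else 0) ≤ (Fintype.card Ω : ℝ) := by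
    have : ∑ S : Ω, (if f S ≤ x then lazyU q r 0 S else 0) ≤ ∑ _S : Ω, (1 : ℝ) := by
      refine Finset.sum_le_sum fun S _ => ?_
      split_ifs
      · rw [lazyU_zero]
      · norm_num
    rw [Finset.sum_const, Finset.card_univ, nsmul_eq_mul, mul_one] at this
    exact this
  have hmK : 0 ≤ ∑ S, (if f S ≤ x then lazyU q r K S else 0) := by
    refine Finset.sum_nonneg fun S _ => ?_
    split_ifs
    · exact hu0 K S
    · exact le_refl _
  have hsum : (K : ℝ) * (1 / 5 * T)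
      ≤ ∑ k ∈ range K, ∑ S, (if f S = x then lazyU q r k S * ∑ S', q S S' else 0) := by
    have : ∑ _k ∈ range K, (1 / 5 * T)
        ≤ ∑ k ∈ range K, ∑ S, (if f S = x then lazyU q r k S * ∑ S', q S S' else 0) := by
      refine Finset.sum_le_sum fun k hk => ?_
      apply hlev
      have : (k : ℝ) ≤ (K : ℝ) := by
        exact_mod_cast (Finset.mem_range.1 hk).le
      linarith
    rw [Finset.sum_const, Finset.card_range, nsmul_eq_mul] at this
    exact this
  have h1 : s / 2 ≤ r * (K : ℝ) := by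
    have := mul_le_mul_of_nonneg_left hKhalf hr0.le
    have e : r * (N * s / 2) = s / 2 := by
      calc r * (N * s / 2) = (N * r) * s / 2 := by ring
        _ = s / 2 := by rw [hNr, one_mul]
    linarith
  have h2 : s / 2 * (1 / 5 * T) ≤ r * (K : ℝ) * (1 / 5 * T) :=
    mul_le_mul_of_nonneg_right h1 (by positivity)
  have h3 : r * ((K : ℝ) * (1 / 5 * T))
      ≤ r * ∑ k ∈ range K, ∑ S, (if f S = x then lazyU q r k S * ∑ S', q S S' else 0) :=
    mul_le_mul_of_nonneg_left hsum hr0.le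
  have e4 : r * ((K : ℝ) * (1 / 5 * T)) = r * (K : ℝ) * (1 / 5 * T) := by ring
  have e5 : s / 2 * (1 / 5 * T) = s * T / 10 := by ring
  linarith

end Vale.Agent.Lib.P160.H1
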